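import Vale.Agent.P218UK.Time

/-! A smooth flow with bounded area ratios, extended by zero, is an integral Brakke flow. -/

open MeasureTheory Set Filter Topology Metric Module
open scoped ENNReal NNReal RealInnerProductSpace ContDiff

namespace Vale.Agent.P218UK

open Vale.Agent.P218 (brakkeIntegrand IsIntegralBrakkeFlow IsMeanCurvature)
open Vale.Agent.P218.H63 (lap)
open Vale.Agent.P218GA (area cH ae_area inner_grad)
open Vale.Agent.P218UA

variable {w : ℝ → E3 → ℝ} {I : Set ℝ} {A : ℝ} {f : ℝ × E3 → ℝ}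

lemma deriv_time (hf : ContDiff ℝ 1 f) (t : ℝ) (x : E3) :
    deriv (fun s => f (s, x)) t = fderiv ℝ f (t, x) (1, 0) := by
  have h1 : HasDerivAt (fun s : ℝ => (s, x)) ((1 : ℝ), (0 : E3)) t :=
    (hasDerivAt_id t).prodMk (hasDerivAt_const t x)
  exact ((hf.differentiable one_ne_zero (t, x)).hasFDerivAt.comp_hasDerivAt t h1).deriv

lemma fderiv_space (hf : ContDiff ℝ 1 f) (t : ℝ) (x v : E3) :
    fderiv ℝ (fun y => f (t, y)) x v = fderiv ℝ f (t, x) (0, v) := by
  have h1 := ((hf.differentiable one_ne_zero (t, x)).hasFDerivAt.comp x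
    (hasFDerivAt_prodMk_right t x)).fderiv
  rw [show (fun y => f (t, y)) = f ∘ fun y => (t, y) from rfl, h1]
  rfl

/-- the integrand of the time derivative -/
noncomputable def bi (w : ℝ → E3 → ℝ) (f : ℝ × E3 → ℝ) (t : ℝ) (x : E3) : ℝ :=
  fderiv ℝ f (t, x) (1, 0) - lap (w t) x * fderiv ℝ f (t, x) (0, gradient (w t) x)
    - lap (w t) x ^ 2 * f (t, x)

lemma cont_bi (h : IsFlow w I) (hf : ContDiff ℝ 1 f) :
    ContinuousOn (fun p : ℝ × E3 => bi w f p.1 p.2) (I ×ˢ univ) := by
  have hD : ContinuousOn (fderiv ℝ f) (I ×ˢ univ) :=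
    (hf.continuous_fderiv one_ne_zero).continuousOn
  exact ((hD.clm_apply continuousOn_const).sub ((cont_lap h).mul
    (hD.clm_apply (continuousOn_const.prodMk (cont_grad h))))).sub
    (((cont_lap h).pow 2).mul hf.continuous.continuousOn)

lemma bi_zero {t : ℝ} {x : E3} (hx : (t, x) ∉ tsupport f) : bi w f t x = 0 := by
  simp [bi, image_eq_zero_of_notMem_tsupport hx, fderiv_of_notMem_tsupport ℝ hx]

lemma brakke_eq (hf : ContDiff ℝ 1 f) {t : ℝ} (h : IsSurf (w t)) {x : E3} (hx : w t x = 0) :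
    brakkeIntegrand (mcv (w t)) f t x = bi w f t x := by
  rw [brakkeIntegrand, norm_mcv_sq h hx, deriv_time hf, mcv, map_smul, fderiv_space hf, bi,
    smul_eq_mul]
  ring

lemma notMem_tsupport {t : ℝ} {x : E3} (hx : x ∉ Prod.snd '' tsupport f) :
    (t, x) ∉ tsupport f := fun h => hx ⟨_, h, rfl⟩

lemma hasDerivAt_int (h1 : Calc) (h : IsFlow w I) (hf : ContDiff ℝ 1 f) (hc : HasCompactSupport f)
    {t : ℝ} (ht : t ∈ I) :
    HasDerivAt (fun s => ∫ x, f (s, x) ∂(ar (w s))) (∫ x, bi w f t x ∂(ar (w t))) t := by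
  have := h1.ddt w I h I h.isOpen Subset.rfl (fun s x => f (s, x)) hf.contDiffOn _
    (hc.isCompact.image continuous_snd)
    (fun _ _ x hx => image_eq_zero_of_notMem_tsupport (notMem_tsupport hx)) t ht
  refine this.congr_deriv (integral_congr_ae (Eventually.of_forall fun x => ?_))
  simp only [bi, deriv_time hf, inner_grad, fderiv_space hf]

lemma cont_int (h1 : Calc) (h : IsFlow w I) (hf : ContDiff ℝ 1 f) (hc : HasCompactSupport f) :
    ContinuousOn (fun t => ∫ x, bi w f t x ∂(ar (w t))) I :=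
  (h1.param w I h 0 ℝ id (bi w f) I h.isOpen contDiffOn_id (mapsTo_id I)
    (contDiffOn_zero.2 (cont_bi h hf)) _ (hc.isCompact.image continuous_snd)
    fun _ _ _ hx => bi_zero (notMem_tsupport hx)).continuousOn

lemma abs_bi_le {B : ℝ} (hB : ∀ p, ‖f p‖ ≤ B) (hD : ∀ p, ‖fderiv ℝ f p‖ ≤ B) {t : ℝ} {x : E3}
    (hx : ‖gradient (w t) x‖ = 1) : ‖bi w f t x‖ ≤ 2 * B * (1 + lap (w t) x ^ 2) := by
  have hB0 : 0 ≤ B := (norm_nonneg _).trans (hB 0)
  have h1 : ‖fderiv ℝ f (t, x) (1, 0)‖ ≤ B := by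
    simpa using (fderiv ℝ f (t, x)).le_of_opNorm_le (hD _) ((1 : ℝ), (0 : E3))
  have h2 : ‖fderiv ℝ f (t, x) (0, gradient (w t) x)‖ ≤ B := by
    simpa [hx] using (fderiv ℝ f (t, x)).le_of_opNorm_le (hD _) ((0 : ℝ), gradient (w t) x)
  have h3 : ‖lap (w t) x‖ ≤ 1 + lap (w t) x ^ 2 := by
    rw [Real.norm_eq_abs, ← sq_abs]
    nlinarith [sq_nonneg (|lap (w t) x| - 1), abs_nonneg (lap (w t) x)]
  calc ‖bi w f t x‖ ≤ B + (1 + lap (w t) x ^ 2) * B + lap (w t) x ^ 2 * B := by
        refine (norm_sub_le _ _).trans (add_le_add ((norm_sub_le _ _).trans (add_le_add h1 ?_)) ?_)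
        · rw [norm_mul]
          exact mul_le_mul h3 h2 (norm_nonneg _) (by positivity)
        · rw [norm_mul, Real.norm_of_nonneg (sq_nonneg _)]
          exact mul_le_mul_of_nonneg_left (hB _) (sq_nonneg _)
    _ = _ := by ring

lemma integrable_int (h1 : Calc) (h2 : Mono) (h : IsARFlow w I A) {T : ℝ} (hT : 0 < T)
    (hI : Ico 0 T ⊆ I) (hf : ContDiff ℝ 1 f) (hc : HasCompactSupport f) :
    IntegrableOn (fun t => ∫ x, bi w f t x ∂(ar (w t))) (Ico 0 T) := by
  refine ⟨((cont_int h1 h.toIsFlow hf hc).mono hI).aestronglyMeasurable measurableSet_Ico, ?_⟩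
  obtain ⟨B₁, hB₁⟩ := hf.continuous.bounded_above_of_compact_support hc
  obtain ⟨B₂, hB₂⟩ := (hf.continuous_fderiv one_ne_zero).bounded_above_of_compact_support
    (hc.fderiv ℝ)
  obtain ⟨r, hr, hK⟩ := (hc.isCompact.image continuous_snd).isBounded.subset_ball_lt 0 (0 : E3)
  have hB0 : 0 ≤ max B₁ B₂ := ((norm_nonneg _).trans (hB₁ 0)).trans (le_max_left _ _)
  have h3 : ∀ t ∈ Ico 0 T, ‖∫ x, bi w f t x ∂(ar (w t))‖ₑ
      ≤ ENNReal.ofReal (2 * max B₁ B₂) * mass w r t := by
    intro t ht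
    have hs := h1.slice w I h.toIsFlow t (hI ht)
    refine (enorm_integral_le_lintegral_enorm _).trans ?_
    rw [mass, ← lintegral_const_mul' _ _ ENNReal.ofReal_ne_top,
      ← lintegral_indicator measurableSet_ball]
    refine lintegral_mono_ae ?_
    filter_upwards [ae_restrict_mem
      (Vale.Agent.P218GA.measurableSet_zero hs.smooth.continuous)] with x hx
    by_cases hxr : x ∈ ball (0 : E3) r
    · rw [indicator_of_mem hxr, ← ofReal_norm, ← ENNReal.ofReal_one,
        ← ENNReal.ofReal_add zero_le_one (sq_nonneg _), ← ENNReal.ofReal_mul (by positivity)]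
      exact ENNReal.ofReal_le_ofReal (abs_bi_le (fun p => (hB₁ p).trans (le_max_left _ _))
        (fun p => (hB₂ p).trans (le_max_right _ _)) (surf_unit hs x hx))
    · rw [bi_zero (notMem_tsupport fun h => hxr (hK h)), enorm_zero]
      exact zero_le
  refine (setLIntegral_mono' measurableSet_Ico h3).trans_lt ?_
  rw [lintegral_const_mul' _ _ ENNReal.ofReal_ne_top]
  exact ENNReal.mul_lt_top ENNReal.ofReal_lt_top (mass_fin h1 h2 h hT hI hr)

/-- an elementary lemma: the integrated inequality across a downward jump to zero -/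
lemma jump {M G : ℝ → ℝ} {T : ℝ} (hG : IntegrableOn G (Ico 0 T))
    (hd : ∀ t ∈ Ico 0 T, HasDerivAt M (G t) t) (hM : ∀ t, 0 ≤ M t)
    (h0 : ∀ t, T ≤ t → M t = 0 ∧ G t = 0) {a b : ℝ} (ha : 0 ≤ a) (hab : a ≤ b) :
    IntervalIntegrable G volume a b ∧ M b - M a ≤ ∫ t in a..b, G t := by
  have hG' : IntegrableOn G (Ici 0) := by
    have h2 : IntegrableOn G (Ici T) :=
      integrableOn_zero.congr_fun (fun t ht => ((h0 t ht).2).symm) measurableSet_Ici
    refine (hG.union h2).mono_set fun t ht => ?_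
    rcases lt_or_ge t T with h | h
    exacts [Or.inl ⟨ht, h⟩, Or.inr h]
  have hi : ∀ c d, 0 ≤ c → c ≤ d → IntervalIntegrable G volume c d := fun c d hc hcd =>
    (hG'.mono_set fun t ht => by
      rw [uIcc_of_le hcd] at ht
      exact hc.trans ht.1).intervalIntegrable
  have hlt : ∀ c, a ≤ c → c < T → ∫ t in a..c, G t = M c - M a := fun c hac hc =>
    intervalIntegral.integral_eq_sub_of_hasDerivAt (fun t ht => by
      rw [uIcc_of_le hac] at ht
      exact hd t ⟨ha.trans ht.1, ht.2.trans_lt hc⟩) (hi a c ha hac)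
  have hz : ∀ c, T ≤ c → c ≤ b → ∫ t in c..b, G t = 0 := fun c hc hcb => by
    rw [intervalIntegral.integral_congr (g := fun _ => 0) fun t ht => by
      rw [uIcc_of_le hcb] at ht
      exact (h0 t (hc.trans ht.1)).2]
    simp
  refine ⟨hi a b ha hab, ?_⟩
  rcases lt_or_ge b T with hb | hb
  · exact (hlt b hab hb).ge
  rcases le_or_gt T a with haT | haT
  · rw [hz a haT hab, (h0 a haT).1, (h0 b hb).1, sub_zero]
  rw [← intervalIntegral.integral_add_adjacent_intervals (hi a T ha haT.le)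
    (hi T b (ha.trans haT.le) hb), hz T le_rfl hb, add_zero, (h0 b hb).1]
  have hc := intervalIntegral.continuousOn_primitive_interval' (hi a T ha haT.le) left_mem_uIcc
    T right_mem_uIcc
  rw [uIcc_of_le haT.le] at hc
  have hc' : Tendsto (fun c => ∫ t in a..c, G t) (𝓝[<] T) (𝓝 (∫ t in a..T, G t)) := by
    rw [← nhdsWithin_Ioo_eq_nhdsLT haT]
    exact hc.tendsto.mono_left (nhdsWithin_mono _ Ioo_subset_Icc_self)
  refine ge_of_tendsto hc' ?_
  filter_upwards [Ioo_mem_nhdsLT haT] with c hc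
  rw [hlt c hc.1.le hc.2]
  exact sub_le_sub_right (hM c) _

theorem brakke_zero (h1 : Calc) (h2 : Mono) (h : IsARFlow w I A) {T : ℝ} (hT : 0 < T)
    (hI : Ico 0 T ⊆ I) :
    IsIntegralBrakkeFlow 2 fun t => if t < T then area 2 (w t) else 0 := by
  have hs : ∀ t, 0 ≤ t ∧ t < T → IsSurf (w t) := fun t ht => h1.slice w I h.toIsFlow t (hI ht)
  refine ⟨fun t ht => ?_, fun t => if ht : 0 ≤ t ∧ t < T then surfV (hs t ht) else zeroV,
    fun t => mcv (w t), Eventually.of_forall fun t ht => ?_, fun T' K hK => ?_,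
    fun f hf hc hf0 a b ha hab => ?_⟩
  · split_ifs with htT
    · exact surf_locFin (hs t ⟨ht, htT⟩)
    · infer_instance
  · by_cases htT : t < T
    · simp only [dif_pos (And.intro ht htT), if_pos htT]
      exact ⟨surfV_weight _, surfV_mc h1 _⟩
    · simp only [dif_neg (fun h : 0 ≤ t ∧ t < T => htT h.2), if_neg htT]
      exact ⟨zeroV_weight, zeroV_mc _⟩
  · obtain ⟨r, hr, hKr⟩ := hK.isBounded.subset_ball_lt 0 (0 : E3)
    have h3 : ∀ t ∈ Icc 0 T', ∫⁻ x in K, (1 + ‖mcv (w t) x‖ₑ ^ 2)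
        ∂(if t < T then area 2 (w t) else 0)
          ≤ (Ico 0 T).indicator (fun t => cH 2 * mass w r t) t := by
      intro t ht
      split_ifs with htT
      · rw [indicator_of_mem (show t ∈ Ico 0 T from ⟨ht.1, htT⟩), area_eq, Measure.restrict_smul,
          lintegral_smul_measure, mass, ENNReal.smul_def, smul_eq_mul]
        refine mul_le_mul' le_rfl
          ((lintegral_mono_set hKr).trans (le_of_eq (lintegral_congr_ae ?_)))
        refine ae_restrict_of_ae ?_
        filter_upwards [ae_restrict_mem (Vale.Agent.P218GA.measurableSet_zero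
          (hs t ⟨ht.1, htT⟩).smooth.continuous)] with x hx
        rw [enorm_mcv_sq (hs t ⟨ht.1, htT⟩) hx]
      · simp
    refine (setLIntegral_mono' measurableSet_Icc h3).trans_lt
      ((setLIntegral_le_lintegral _ _).trans_lt ?_)
    rw [lintegral_indicator measurableSet_Ico, lintegral_const_mul' _ _ ENNReal.coe_ne_top]
    exact ENNReal.mul_lt_top ENNReal.coe_lt_top (mass_fin h1 h2 h hT hI hr)
  · have e : ∀ t ∈ Ico 0 T, ∫ x, brakkeIntegrand (mcv (w t)) f t x
        ∂(if t < T then area 2 (w t) else 0) = cH 2 * ∫ x, bi w f t x ∂(ar (w t)) := by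
      intro t ht
      rw [if_pos ht.2, ← integral_area]
      refine integral_congr_ae ?_
      filter_upwards [ae_area (hs t ht).smooth.continuous] with x hx
      exact brakke_eq hf (hs t ht) hx
    refine jump (T := T) (M := fun t => ∫ x, f (t, x) ∂(if t < T then area 2 (w t) else 0))
      (IntegrableOn.congr_fun ((integrable_int h1 h2 h hT hI hf hc).const_mul (cH 2))
        (fun t ht => (e t ht).symm) measurableSet_Ico) (fun t ht => ?_)
      (fun t => integral_nonneg fun x => hf0 _) (fun t ht => ?_) ha hab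
    · rw [e t ht]
      refine ((hasDerivAt_int h1 h.toIsFlow hf hc (hI ht)).const_mul
        (cH 2 : ℝ)).congr_of_eventuallyEq ?_
      filter_upwards [Iio_mem_nhds ht.2] with s hs
      rw [if_pos (show s < T from hs), integral_area]
    · simp [if_neg (not_lt.2 ht)]

lemma shift (h : IsARFlow w I A) (a : ℝ) :
    IsARFlow (fun t => w (a + t)) ((fun t => a + t) ⁻¹' I) A where
  isOpen := h.isOpen.preimage (by fun_prop)
  conn := h.conn.preimage_mono fun _ _ hst => add_le_add_right hst a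
  smooth := h.smooth.comp (f := fun p : ℝ × E3 => (a + p.1, p.2)) (by fun_prop)
    fun _ hp => ⟨hp.1, mem_univ _⟩
  eik := fun t ht x hx =>
    ((show Continuous fun p : ℝ × E3 => (a + p.1, p.2) by fun_prop).tendsto (t, x)).eventually
      (h.eik (a + t) ht x hx)
  eqn := fun t ht x hx => by
    rw [← h.eqn (a + t) ht x hx]
    exact deriv_comp_const_add (fun s => w s x) a t
  one_le := h.one_le
  ratio := fun t ht => h.ratio (a + t) ht

/-- [U1] -/
theorem brakke (h1 : Calc) (h2 : Mono) : BrakkeStmt := fun _ _ _ h a _ haT hI _ =>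
  brakke_zero h1 h2 (shift h a) (sub_pos.2 haT) fun _ ht =>
    hI ⟨le_add_of_nonneg_right ht.1, lt_sub_iff_add_lt'.1 ht.2⟩

end Vale.Agent.P218UK
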