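import Vale.Agent.P218UM.RegMass

/-! Gaussian density ratios of a measure which is close to at most one plane. -/

open MeasureTheory Set Filter Topology Metric
open scoped ENNReal NNReal RealInnerProductSpace ContDiff

namespace Vale.Agent.P218UK

open Vale.Agent.P218UA Vale.Agent.P218UM

/-- a cut-off function -/
noncomputable def cut : ContDiffBump (0 : E3) := ⟨3 / 20, 1 / 4, by norm_num, by norm_num⟩

lemma cut_one {x : E3} (hx : ‖x‖ ≤ 3 / 20) : cut x = 1 :=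
  cut.one_of_mem_closedBall (by simpa [cut] using hx)

lemma cut_zero {x : E3} (hx : 1 / 4 ≤ ‖x‖) : cut x = 0 :=
  cut.zero_of_le_dist (by simpa [cut] using hx)

lemma exists_cut_bound : ∃ B : ℝ, 0 ≤ B ∧ ∀ x, ‖fderiv ℝ cut x‖ ≤ B := by
  obtain ⟨B, hB⟩ := ((cut.contDiff (n := 1)).continuous_fderiv
    one_ne_zero).bounded_above_of_compact_support (cut.hasCompactSupport.fderiv ℝ)
  exact ⟨B, (norm_nonneg _).trans (hB 0), hB⟩

/-- the Gaussian -/
noncomputable def gs (ρ : ℝ) (y x : E3) : ℝ := Real.exp (-‖x - y‖ ^ 2 / (4 * ρ ^ 2))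

lemma gs_pos (ρ : ℝ) (y x : E3) : 0 < gs ρ y x := Real.exp_pos _

lemma gs_le_one (ρ : ℝ) (y x : E3) : gs ρ y x ≤ 1 :=
  Real.exp_le_one_iff.2 (div_nonpos_of_nonpos_of_nonneg (neg_nonpos.2 (sq_nonneg _))
    (by positivity))

lemma contDiff_gs (ρ : ℝ) (y : E3) : ContDiff ℝ 1 (gs ρ y) :=
  (((contDiff_id.sub contDiff_const).norm_sq ℝ).neg.div_const _).exp

lemma norm_fderiv_gs (ρ : ℝ) (y x : E3) : ‖fderiv ℝ (gs ρ y) x‖ ≤ ‖x - y‖ / (2 * ρ ^ 2) := by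
  have h1 : HasFDerivAt (fun x : E3 => ‖x - y‖ ^ 2) (2 • innerSL ℝ (x - y)) x := by
    simpa using ((hasFDerivAt_id x).sub_const y).norm_sq
  have h2 : HasFDerivAt (gs ρ y)
      (gs ρ y x • ((-(4 * ρ ^ 2)⁻¹) • (2 • innerSL ℝ (x - y) : E3 →L[ℝ] ℝ))) x := by
    have h3 := (h1.const_mul (-(4 * ρ ^ 2)⁻¹)).exp
    have e : ∀ x : E3, -(4 * ρ ^ 2)⁻¹ * ‖x - y‖ ^ 2 = -‖x - y‖ ^ 2 / (4 * ρ ^ 2) := fun x => by
      ring
    simp only [e] at h3
    exact h3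
  have h4 : ‖(2 • innerSL ℝ (x - y) : E3 →L[ℝ] ℝ)‖ ≤ 2 * ‖x - y‖ := by
    refine (norm_nsmul_le).trans ?_
    rw [innerSL_apply_norm, Nat.cast_ofNat]
  rw [h2.fderiv, norm_smul, norm_smul, norm_neg, Real.norm_of_nonneg (gs_pos ρ y x).le,
    Real.norm_of_nonneg (by positivity)]
  calc _ ≤ 1 * ((4 * ρ ^ 2)⁻¹ * (2 * ‖x - y‖)) := by
        gcongr
        exact gs_le_one ρ y x
    _ = _ := by ring

lemma isTest_cut {B : ℝ} (hB0 : 0 ≤ B) (hB : ∀ x, ‖fderiv ℝ cut x‖ ≤ B) {ρ κ : ℝ} (hκ : 0 < κ)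
    (hρ : κ ≤ ρ) {y : E3} (hy : ‖y‖ ≤ 1 / 10) :
    IsTest 10 fun x => (1 + B + 1 / κ ^ 2)⁻¹ * (cut x * gs ρ y x) := by
  have hK : 1 ≤ 1 + B + 1 / κ ^ 2 := by
    have : 0 ≤ 1 / κ ^ 2 := by positivity
    linarith
  have hs : ContDiff ℝ 1 fun x => cut x * gs ρ y x := cut.contDiff.mul (contDiff_gs ρ y)
  refine ⟨contDiff_const.mul hs, fun x hx => ?_, fun x => ?_, fun x => ?_⟩
  · rw [cut_zero (by linarith), zero_mul, mul_zero]
  · rw [abs_of_nonneg (mul_nonneg (by positivity) (mul_nonneg cut.nonneg (gs_pos ρ y x).le))]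
    exact mul_le_one₀ (inv_le_one_of_one_le₀ hK) (mul_nonneg cut.nonneg (gs_pos ρ y x).le)
      (mul_le_one₀ cut.le_one (gs_pos ρ y x).le (gs_le_one ρ y x))
  · have d1 := (cut.contDiff (n := 1)).differentiable one_ne_zero x
    have d2 := (contDiff_gs ρ y).differentiable one_ne_zero x
    rw [fderiv_const_mul (hs.differentiable one_ne_zero x), norm_smul,
      Real.norm_of_nonneg (by positivity), inv_mul_le_iff₀ (by positivity), mul_one,
      fderiv_fun_mul d1 d2]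
    have h1 : ‖cut x • fderiv ℝ (gs ρ y) x‖ ≤ 1 / κ ^ 2 := by
      rcases le_or_gt (1 / 4) ‖x‖ with hx | hx
      · rw [cut_zero hx, zero_smul, norm_zero]
        positivity
      · rw [norm_smul, Real.norm_of_nonneg cut.nonneg]
        have h3 : ‖x - y‖ ≤ 2 := (norm_sub_le _ _).trans (by linarith)
        calc _ ≤ 1 * (2 / (2 * κ ^ 2)) := by
              refine mul_le_mul cut.le_one ((norm_fderiv_gs ρ y x).trans ?_) (norm_nonneg _)
                zero_le_one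
              gcongr
          _ = _ := by field_simp
    have h2 : ‖gs ρ y x • fderiv ℝ cut x‖ ≤ B := by
      rw [norm_smul, Real.norm_of_nonneg (gs_pos ρ y x).le]
      exact (mul_le_mul (gs_le_one ρ y x) (hB x) (norm_nonneg _) zero_le_one).trans_eq (one_mul B)
    exact (norm_add_le _ _).trans (by linarith)

lemma exp_neg_le {u : ℝ} (hu : 0 < u) : Real.exp (-u) ≤ u⁻¹ := by
  rw [Real.exp_neg]
  exact inv_anti₀ hu (by linarith [Real.add_one_le_exp u])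

/-- at most one of the planes is close to the centre -/
lemma one_plane (hC : CylDensStmt) {μ : Measure E3} {z n : E3} {r δ : ℝ}
    (hn : ‖n‖ = 1) {k : ℕ} {a : Fin k → ℝ} (hδ : δ ≤ 1 / 200) (hm : mk μ z r < 3 / 2)
    (h : ∀ φ, IsTest 10 φ →
      |(∫ y, φ (r⁻¹ • (y - z)) ∂μ) / r ^ 2 - ∫ y, φ y ∂(pl n a)| ≤ δ) :
    ∃ h₀ : ℝ, ∀ F : ℝ → ℝ, (∀ s, 0 ≤ F s) → ∀ G : Fin k → ℝ, (∀ i, G i ≤ F (a i)) →
      (∀ i, 1 / 4 ≤ |a i| → G i = 0) → ∑ i, G i ≤ F h₀ := by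
  have h1 := h _ (isTest_kk le_rfl (by norm_num))
  rw [integral_const_mul, integral_const_mul,
    integral_pl hn a (continuous_kk_scale 0 1) (hasCompactSupport_kk 0 one_pos)] at h1
  have h2 : ∀ i, ∫ y, kk ((1 : ℝ)⁻¹ • (y - 0))
      ∂((μHE[2] : Measure E3).restrict {z | ⟪z, n⟫ = a i}) = max (1 - a i ^ 2) 0 ^ 4 := fun i => by
    have h3 := ((hC n hn).2.2 0 1 (a i) one_pos).2
    rw [P218UA.mk, inner_zero_left, zero_sub, div_one, neg_sq, one_pow, div_one] at h3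
    exact h3
  simp only [h2] at h1
  simp only [inv_one, sub_zero, one_smul] at h1
  rw [mul_div_assoc, ← P218UA.mk] at h1
  have h3 := (abs_le.1 h1).1
  have h4 : ∀ i, |a i| < 1 / 4 → (15 / 16 : ℝ) ^ 4 ≤ max (1 - a i ^ 2) 0 ^ 4 := fun i hi => by
    refine pow_le_pow_left₀ (by norm_num) (le_max_of_le_left ?_) 4
    rw [← sq_abs]
    nlinarith [abs_nonneg (a i)]
  have h5 : ∀ i j, |a i| < 1 / 4 → |a j| < 1 / 4 → j = i := fun i j hi hj => by
    by_contra hij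
    have h6 : max (1 - a j ^ 2) 0 ^ 4 + max (1 - a i ^ 2) 0 ^ 4
        ≤ ∑ i, max (1 - a i ^ 2) 0 ^ 4 := by
      rw [← Finset.sum_pair (f := fun i => max (1 - a i ^ 2) 0 ^ 4) hij]
      exact Finset.sum_le_sum_of_subset_of_nonneg (Finset.subset_univ _) fun _ _ _ => by positivity
    have h7 := h4 i hi
    have h8 := h4 j hj
    norm_num at h7 h8
    linarith
  by_cases hex : ∃ i, |a i| < 1 / 4
  · obtain ⟨i, hi⟩ := hex
    refine ⟨a i, fun F _ G hG hG0 => ?_⟩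
    rw [Finset.sum_eq_single i (fun j _ hj => hG0 j (not_lt.1 fun h => hj (h5 i j hi h)))
      (by simp)]
    exact hG i
  · refine ⟨0, fun F hF G _ hG0 => ?_⟩
    rw [Finset.sum_eq_zero fun i _ => hG0 i (not_lt.1 fun h => hex ⟨i, h⟩)]
    exact hF 0

lemma gs_scale {r : ℝ} (hr : 0 < r) (r' : ℝ) (x y z : E3) :
    gs (r' / r) (r⁻¹ • (y - z)) (r⁻¹ • (x - z)) = gs r' y x := by
  rw [gs, gs, ← smul_sub, sub_sub_sub_cancel_right, norm_smul, norm_inv,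
    Real.norm_of_nonneg hr.le]
  congr 1
  rcases eq_or_ne r' 0 with rfl | h
  · simp
  · field_simp

lemma gs_split {r r' κ : ℝ} (hr : 0 < r) (hr' : 0 < r') (h : r' ≤ κ * r) {y z : E3}
    (hy : ‖y - z‖ ≤ r / 10) (x : E3) : gs r' y x ≤ cut (r⁻¹ • (x - z)) * gs r' y x
      + 3200 * κ ^ 2 * Real.exp (-‖x - y‖ ^ 2 / (8 * r' ^ 2)) := by
  rcases le_or_gt ‖r⁻¹ • (x - z)‖ (3 / 20) with hx | hx
  · rw [cut_one hx, one_mul]
    exact le_add_of_nonneg_right (by positivity)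
  · refine le_add_of_nonneg_of_le (mul_nonneg cut.nonneg (gs_pos _ _ _).le) ?_
    rw [norm_smul, norm_inv, Real.norm_of_nonneg hr.le, lt_inv_mul_iff₀ hr] at hx
    have h1 : r / 20 ≤ ‖x - y‖ := by
      have := norm_sub_le_norm_sub_add_norm_sub x y z
      linarith
    have h2 : 0 < ‖x - y‖ := lt_of_lt_of_le (by positivity) h1
    have e : gs r' y x = Real.exp (-(‖x - y‖ ^ 2 / (8 * r' ^ 2)))
        * Real.exp (-‖x - y‖ ^ 2 / (8 * r' ^ 2)) := by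
      rw [gs, ← Real.exp_add]
      congr 1
      ring
    rw [e]
    refine mul_le_mul_of_nonneg_right ((exp_neg_le (by positivity)).trans ?_) (Real.exp_pos _).le
    rw [inv_div]
    calc _ ≤ 8 * (κ * r) ^ 2 / (r / 20) ^ 2 := by gcongr
      _ = _ := by field_simp; ring

/-- the Gaussian density ratios are at most those of one plane -/
theorem gd_le (hM : Mono) (hC : CylDensStmt) {A ε : ℝ} (hA : 0 ≤ A) (hε : 0 < ε) :
    ∃ κ₁ > 0, κ₁ ≤ 1 / 300 ∧ ∀ κ₀ > 0, ∃ δ > 0, ∀ μ : Measure E3, AR μ A → ∀ (z : E3) (r : ℝ),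
      0 < r → mk μ z r < 3 / 2 → NearPl μ z r 10 δ → ∃ (n : E3) (h₀ : ℝ), ‖n‖ = 1 ∧
        ∀ (y : E3) (r' : ℝ), ‖y - z‖ ≤ r / 10 → κ₀ * r ≤ r' → r' ≤ κ₁ * r →
          gd μ y r' ≤ Real.exp (-(⟪y - z, n⟫ - h₀) ^ 2 / (4 * r' ^ 2)) + ε := by
  obtain ⟨C, hC'⟩ := hM.tail
  obtain ⟨B, hB0, hB⟩ := exists_cut_bound
  set κ₁ : ℝ := min (1 / 300) (ε / (30 * (|C| * A + 1))) with hκ₁
  have hκ₁0 : 0 < κ₁ := lt_min (by norm_num) (by positivity)
  have hκ₁1 : κ₁ ≤ 1 / 300 := min_le_left _ _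
  have hκ₁2 : κ₁ * (30 * (|C| * A + 1)) ≤ ε := (le_div_iff₀ (by positivity)).1 (min_le_right _ _)
  refine ⟨κ₁, hκ₁0, hκ₁1, fun κ₀ hκ₀ => ?_⟩
  set K : ℝ := 1 + B + 1 / κ₀ ^ 2 with hK
  have hK0 : 0 < K := by positivity
  refine ⟨min (1 / 200) (ε * κ₀ ^ 2 / (2 * K)), lt_min (by norm_num) (by positivity),
    fun μ hμ z r hr hm ⟨n, k, a, hn, h⟩ => ?_⟩
  obtain ⟨h₀, hh₀⟩ := one_plane hC hn (min_le_left _ _) hm h
  refine ⟨n, r * h₀, hn, fun y r' hy h1 h2 => ?_⟩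
  have := hμ.locFin
  have hr' : 0 < r' := lt_of_lt_of_le (by positivity) h1
  set ρ := r' / r with hρ
  have hρ0 : 0 < ρ := by positivity
  have hρ1 : κ₀ ≤ ρ := (le_div_iff₀ hr).2 h1
  set v := r⁻¹ • (y - z) with hv
  have hv1 : ‖v‖ ≤ 1 / 10 := by
    rw [hv, norm_smul, norm_inv, Real.norm_of_nonneg hr.le, inv_mul_le_iff₀ hr]
    linarith
  have hc : Continuous fun x => cut x * gs ρ v x :=
    cut.continuous.mul (contDiff_gs ρ v).continuous
  have hcs : HasCompactSupport fun x => cut x * gs ρ v x := cut.hasCompactSupport.mul_right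
  have h3 := (abs_le.1 ((h _ (isTest_cut hB0 hB hκ₀ hρ1 hv1)).trans (min_le_right _ _))).2
  rw [integral_const_mul, integral_const_mul, integral_pl hn a hc hcs, ← hK] at h3
  simp only [hρ, hv, gs_scale hr] at h3
  rw [← hρ, ← hv] at h3
  have h4 := hh₀ (fun s => 4 * Real.pi * ρ ^ 2 * Real.exp (-(⟪v, n⟫ - s) ^ 2 / (4 * ρ ^ 2)))
    (fun s => by positivity) (fun i => ∫ x, cut x * gs ρ v x
      ∂((μHE[2] : Measure E3).restrict {z | ⟪z, n⟫ = a i})) (fun i => ?_) (fun i hi => ?_)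
  rotate_left
  · have h5 := ((hC n hn).2.2 v ρ (a i) hρ0).1
    rw [gd, div_eq_iff (by positivity)] at h5
    rw [mul_comm (4 * Real.pi * ρ ^ 2), ← h5]
    refine integral_mono_of_nonneg (Eventually.of_forall fun x =>
      mul_nonneg cut.nonneg (gs_pos _ _ _).le) (Integrable.of_integral_ne_zero ?_)
      (Eventually.of_forall fun x => mul_le_of_le_one_left (gs_pos _ _ _).le cut.le_one)
    rw [h5]
    positivity
  · refine setIntegral_eq_zero_of_forall_eq_zero fun x hx => ?_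
    have h5 := abs_real_inner_le_norm x n
    rw [show ⟪x, n⟫ = a i from hx, hn, mul_one] at h5
    rw [cut_zero (hi.trans h5), zero_mul]
  obtain ⟨i1, h5⟩ := hC' μ A hA hμ y r' hr'
  have i2 : Integrable (fun x => cut (r⁻¹ • (x - z)) * gs r' y x) μ := by
    refine Continuous.integrable_of_hasCompactSupport
      ((cut.continuous.comp (by fun_prop)).mul (contDiff_gs r' y).continuous)
      (HasCompactSupport.intro (isCompact_closedBall z r) fun x hx => ?_)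
    rw [mem_closedBall_iff_norm, not_le] at hx
    rw [cut_zero, zero_mul]
    rw [norm_smul, norm_inv, Real.norm_of_nonneg hr.le, le_inv_mul_iff₀ hr]
    linarith
  have h6 := integral_mono_of_nonneg (Eventually.of_forall fun x => (gs_pos r' y x).le)
    (i2.add (i1.const_mul _)) (Eventually.of_forall (gs_split hr hr' h2 hy))
  rw [integral_add' i2 (i1.const_mul _), integral_const_mul] at h6
  have e1 : -(⟪y - z, n⟫ - r * h₀) ^ 2 / (4 * r' ^ 2) = -(⟪v, n⟫ - h₀) ^ 2 / (4 * ρ ^ 2) := by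
    rw [hv, hρ, real_inner_smul_left]
    field_simp
  have e2 : r' = ρ * r := by rw [hρ]; field_simp
  rw [e1, gd, div_le_iff₀ (by positivity)]
  change ∫ x, gs r' y x ∂μ ≤ _
  set X := ∫ x, cut (r⁻¹ • (x - z)) * gs r' y x ∂μ
  set S := ∑ i, ∫ x, cut x * gs ρ v x ∂((μHE[2] : Measure E3).restrict {z | ⟪z, n⟫ = a i})
  set Y := Real.exp (-(⟪v, n⟫ - h₀) ^ 2 / (4 * ρ ^ 2))
  have h7 : X ≤ (S + ε * κ₀ ^ 2 / 2) * r ^ 2 := by
    rw [← div_le_iff₀ (by positivity)]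
    have e : K⁻¹ * X / r ^ 2 - K⁻¹ * S = K⁻¹ * (X / r ^ 2 - S) := by ring
    rw [e, inv_mul_le_iff₀ hK0] at h3
    have e' : K * (ε * κ₀ ^ 2 / (2 * K)) = ε * κ₀ ^ 2 / 2 := by field_simp
    linarith
  have h8 : ε * κ₀ ^ 2 / 2 * r ^ 2 ≤ ε / 2 * r' ^ 2 := by
    calc _ = ε / 2 * (κ₀ * r) ^ 2 := by ring
      _ ≤ _ := by gcongr
  have h9 : 3200 * κ₁ ^ 2 * ∫ x, Real.exp (-‖x - y‖ ^ 2 / (8 * r' ^ 2)) ∂μ ≤ ε / 2 * r' ^ 2 := by
    calc _ ≤ 3200 * (κ₁ * (1 / 300)) * ((|C| * A + 1) * r' ^ 2) := by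
          rw [sq κ₁]
          gcongr
          refine h5.trans ?_
          gcongr
          exact le_add_of_le_of_nonneg (mul_le_mul_of_nonneg_right (le_abs_self C) hA) zero_le_one
      _ = 32 / 90 * (κ₁ * (30 * (|C| * A + 1))) * r' ^ 2 := by ring
      _ ≤ 1 / 2 * ε * r' ^ 2 := mul_le_mul_of_nonneg_right (by linarith) (sq_nonneg _)
      _ = _ := by ring
  have h10 : S * r ^ 2 ≤ Y * (4 * Real.pi * r' ^ 2) := by
    calc _ ≤ 4 * Real.pi * ρ ^ 2 * Y * r ^ 2 := by gcongr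
      _ = _ := by rw [e2]; ring
  have h11 : ε * r' ^ 2 ≤ ε * (4 * Real.pi * r' ^ 2) := by
    gcongr
    nlinarith [Real.pi_gt_three, sq_nonneg r']
  linarith

end Vale.Agent.P218UK
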