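import Vale.Agent.P218UK.Gauss
import Vale.Agent.P218UG.Frame

/-! Regularity near the points which are not of higher multiplicity. -/

open MeasureTheory Set Filter Topology Metric
open scoped ENNReal NNReal RealInnerProductSpace ContDiff

namespace Vale.Agent.P218UK

open Vale.Agent.P218UA Vale.Agent.P218UM
open Vale.Agent.P218UG (nQ lin exists_frame inner_pt pt_eq norm_lin_le norm_nQ)

lemma integral_scal (ν : Measure E3) {c : ℝ} (hc : c ≠ 0) (f : E3 → ℝ) :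
    ∫ x, f x ∂(scal ν c) = c ^ 2 * ∫ y, f (c • y) ∂ν := by
  rw [scal, integral_smul_measure, ENNReal.toReal_ofReal (sq_nonneg c), smul_eq_mul]
  congr 1
  exact (Homeomorph.smulOfNeZero c hc).measurableEmbedding.integral_map f

lemma gd_scal (ν : Measure E3) {c : ℝ} (hc : 0 < c) (x : E3) (r : ℝ) :
    gd (scal ν c) x r = gd ν (c⁻¹ • x) (r / c) := by
  have e : ∀ y : E3, -‖c • y - x‖ ^ 2 / (4 * r ^ 2) = -‖y - c⁻¹ • x‖ ^ 2 / (4 * (r / c) ^ 2) := by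
    intro y
    have : c • y - x = c • (y - c⁻¹ • x) := by rw [smul_sub, smul_inv_smul₀ hc.ne']
    rw [this, norm_smul, Real.norm_of_nonneg hc.le]
    field_simp
  rw [gd, gd, integral_scal ν hc.ne']
  simp only [e]
  field_simp

lemma AR_scal {ν : Measure E3} {A c : ℝ} (h : AR ν A) (hc : 0 < c) : AR (scal ν c) A := by
  intro x r hr
  have e : (fun y : E3 => c • y) ⁻¹' closedBall x r = closedBall (c⁻¹ • x) (r / c) := by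
    ext y
    have : c • y - x = c • (y - c⁻¹ • x) := by rw [smul_sub, smul_inv_smul₀ hc.ne']
    rw [mem_preimage, mem_closedBall_iff_norm, mem_closedBall_iff_norm, this, norm_smul,
      Real.norm_of_nonneg hc.le, le_div_iff₀ hc, mul_comm]
  rw [scal, Measure.smul_apply, Measure.map_apply (by fun_prop) measurableSet_closedBall, e,
    smul_eq_mul]
  refine (mul_le_mul' le_rfl (h _ _ (by positivity))).trans_eq ?_
  rw [← ENNReal.ofReal_mul (sq_nonneg c)]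
  congr 1
  field_simp

lemma norm_pt_sub (Q : E3 ≃ₗᵢ[ℝ] E3) (p : E3) (ξ : E2) (s : ℝ) : ‖pt Q p ξ s - p‖ ≤ ‖ξ‖ + |s| := by
  rw [pt_eq, add_sub_cancel_left]
  exact norm_lin_le (ξ, s)

variable {w : ℝ → E3 → ℝ} {a A C : ℝ} {s : ℕ → ℝ} {ν : Measure E3}

lemma eventually_lt (ha : a < 0) (hs : TanSeq w s ν) (t : ℝ) :
    ∀ᶠ i in atTop, a / s i ^ 2 < t := by
  have h1 : Tendsto (fun i => t * s i ^ 2) atTop (𝓝 (t * 0 ^ 2)) := (hs.lim.pow 2).const_mul t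
  rw [zero_pow two_ne_zero, mul_zero] at h1
  filter_upwards [h1.eventually (lt_mem_nhds ha)] with i hi
  exact (div_lt_iff₀ (pow_pos (hs.pos i) 2)).2 hi

/-- a bound for the Gaussian density ratios of the limit gives a sheet -/
lemma sheet_of (hT : Tan) (hS : SheetStmt) (A : ℝ) {η : ℝ} (hη : 0 < η) :
    ∃ ε > 0, ∀ (w : ℝ → E3 → ℝ) (a C : ℝ) (s : ℕ → ℝ) (ν : Measure E3), a < 0 →
      IsGood w (Ioo a 0) A C → TanSeq w s ν → ∀ (Q : E3 ≃ₗᵢ[ℝ] E3) (p : E3) (ρ t : ℝ), 0 < ρ →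
      t + ρ ^ 2 < 0 → (∀ (ξ : E2) (h r : ℝ), ‖ξ‖ ≤ 15 * ρ → |h| ≤ 10 * ρ → r ∈ Icc (ρ / 2) ρ →
        gd (scal ν √(-(t - 7 / 8 * ρ ^ 2))) (pt Q p ξ h) r
          ≤ Real.exp (-h ^ 2 / (4 * r ^ 2)) + ε) → ∀ᶠ i in atTop,
        SheetOn (resc w (s i)) (Icc (t - ρ ^ 2 / 8) (t + ρ ^ 2 / 8)) Q p (5 * ρ) ρ η := by
  obtain ⟨ε, hε, hS⟩ := hS A η hη
  refine ⟨ε / 2, half_pos hε, fun w a C s ν ha hw hs Q p ρ t hρ ht h => ?_⟩
  have hρ2 := pow_pos hρ 2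
  have ht₁ : t - 7 / 8 * ρ ^ 2 < 0 := by linarith
  have h1 := hT.slow w a A ha hw.toIsARFlow s ν hs (fun _ => t - 7 / 8 * ρ ^ 2) _ ht₁
    tendsto_const_nhds
  have h2 := eventually_lt ha hs (t - 7 / 8 * ρ ^ 2)
  have h3 := hT.gd_lim _ _ A (h2.mono fun i hi =>
    (hT.resc_good w a A C hw _ (hs.pos i)).ratio _ ⟨hi, ht₁⟩)
    (AR_scal (hT.ratio w a A ha hw.toIsARFlow s ν hs) (Real.sqrt_pos.2 (neg_pos.2 ht₁))) h1
    (‖p‖ + 25 * ρ) (ρ / 2) ρ (ε / 2) (half_pos hρ) (half_pos hε)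
  filter_upwards [h2, h3] with i hi h3
  have e1 : t + ρ ^ 2 / 8 - ρ ^ 2 = t - 7 / 8 * ρ ^ 2 := by ring
  have e2 : t + ρ ^ 2 / 8 - ρ ^ 2 / 4 = t - ρ ^ 2 / 8 := by ring
  have := hS _ _ (hT.resc_good w a A C hw _ (hs.pos i)).toIsARFlow Q p (5 * ρ) ρ (t + ρ ^ 2 / 8)
    (by positivity) hρ (fun τ hτ => ⟨by linarith [hτ.1], by linarith [hτ.2]⟩)
    fun ξ h' r hξ hh hr => by
      have h4 : ‖pt Q p ξ h'‖ ≤ ‖p‖ + 25 * ρ := by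
        have := norm_pt_sub Q p ξ h'
        have := norm_sub_norm_le (pt Q p ξ h') p
        linarith
      have h5 := (abs_le.1 (h3 _ h4 r hr).1).2
      have h6 := h ξ h' r (by linarith) hh hr
      rw [e1]
      linarith
  rwa [e2] at this

lemma sqrt_bounds {t ρ : ℝ} (ht : t < 0) :
    √(-t) ≤ √(-(t - 7 / 8 * ρ ^ 2)) ∧ √(-(t - 7 / 8 * ρ ^ 2)) ≤ √(-t) + ρ ^ 2 / √(-t) := by
  have hc : 0 < √(-t) := Real.sqrt_pos.2 (neg_pos.2 ht)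
  refine ⟨Real.sqrt_le_sqrt (by nlinarith [sq_nonneg ρ]), Real.sqrt_le_iff.2 ⟨by positivity, ?_⟩⟩
  have e : (√(-t) + ρ ^ 2 / √(-t)) ^ 2 = √(-t) ^ 2 + 2 * ρ ^ 2 + (ρ ^ 2 / √(-t)) ^ 2 := by
    field_simp
    ring
  rw [e, Real.sq_sqrt (neg_pos.2 ht).le]
  nlinarith [sq_nonneg ρ, sq_nonneg (ρ ^ 2 / √(-t))]

/-- the Gaussian bound in the coordinates of the time slice -/
lemma gd_slice {Q : E3 ≃ₗᵢ[ℝ] E3} {z : E3} {r c c₁ k κ κ₀ h₀ h₁ ε : ℝ} (hr : 0 < r) (hc : 0 < c)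
    (hc₁ : c ≤ c₁) (hc₂ : c₁ ≤ 2 * c) (hκ₀ : 0 < κ₀) (hk1 : κ₀ ≤ k / 4) (hk2 : k ≤ κ)
    (hκ : κ ≤ 1 / 300) (hh₁ : |h₁| ≤ k * r / 4)
    (hG : ∀ (y : E3) (r' : ℝ), ‖y - z‖ ≤ r / 10 → κ₀ * r ≤ r' → r' ≤ κ * r →
      gd ν y r' ≤ Real.exp (-(⟪y - z, nQ Q⟫ - h₀) ^ 2 / (4 * r' ^ 2)) + ε) :
    ‖(c₁ * h₁) • nQ Q‖ ≤ c * r * k / 2 ∧ ∀ (ξ : E2) (h r' : ℝ), ‖ξ‖ ≤ 15 * (c * r * k) →
      |h| ≤ 10 * (c * r * k) → r' ∈ Icc (c * r * k / 2) (c * r * k) →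
      gd (scal ν c₁) (pt Q (c₁ • z + (c₁ * h₁) • nQ Q) ξ h) r'
        ≤ Real.exp (-(h + c₁ * (h₁ - h₀)) ^ 2 / (4 * r' ^ 2)) + ε := by
  have hk0 : 0 < k := by linarith
  have hκ0 : 0 < κ := hk0.trans_le hk2
  have hc₀ : 0 < c₁ := hc.trans_le hc₁
  have hh : ‖(c₁ * h₁) • nQ Q‖ ≤ c * r * k / 2 := by
    rw [norm_smul, norm_nQ, mul_one, norm_mul, Real.norm_of_nonneg hc₀.le, Real.norm_eq_abs]
    calc _ ≤ 2 * c * (k * r / 4) := by gcongr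
      _ = _ := by ring
  refine ⟨hh, fun ξ h r' hξ hh' hr' => ?_⟩
  have h0 := norm_pt_sub Q (c₁ • z + (c₁ * h₁) • nQ Q) ξ h
  have h0' := inner_pt (Q := Q) (p := c₁ • z + (c₁ * h₁) • nQ Q) ξ h
  generalize pt Q (c₁ • z + (c₁ * h₁) • nQ Q) ξ h = x at h0 h0' ⊢
  have hr'0 : 0 < r' := lt_of_lt_of_le (by positivity) hr'.1
  have e1 : c₁⁻¹ • x - z
      = c₁⁻¹ • (x - (c₁ • z + (c₁ * h₁) • nQ Q) + (c₁ * h₁) • nQ Q) := by
    rw [← sub_sub, sub_add_cancel, smul_sub, inv_smul_smul₀ hc₀.ne']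
  have h1 : ‖c₁⁻¹ • x - z‖ ≤ r / 10 := by
    rw [e1, norm_smul, norm_inv, Real.norm_of_nonneg hc₀.le, inv_mul_le_iff₀ hc₀]
    have h3 : c * r * k ≤ c₁ * r * (1 / 300) := by gcongr; exact hk2.trans hκ
    have h4 : 0 ≤ c * r * k := by positivity
    exact (norm_add_le _ _).trans (by linarith)
  have h2 := hG (c₁⁻¹ • x) (r' / c₁) h1 (by
    rw [le_div_iff₀ hc₀]
    calc _ ≤ k / 4 * r * (2 * c) := by gcongr
      _ = c * r * k / 2 := by ring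
      _ ≤ _ := hr'.1) (by
    rw [div_le_iff₀ hc₀]
    calc _ ≤ c * r * k := hr'.2
      _ = k * r * c := by ring
      _ ≤ _ := by gcongr)
  have e2 : -(⟪c₁⁻¹ • x - z, nQ Q⟫ - h₀) ^ 2 / (4 * (r' / c₁) ^ 2)
      = -(h + c₁ * (h₁ - h₀)) ^ 2 / (4 * r' ^ 2) := by
    rw [e1, real_inner_smul_left, inner_add_left, h0', real_inner_smul_left,
      real_inner_self_eq_norm_sq, norm_nQ]
    field_simp
    ring
  rwa [gd_scal ν hc₀, ← e2]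

lemma small_scale {t r k η c₁ : ℝ} {p : E3} (ht : t < 0) (hr : 0 < r) (hr1 : r < 1) (hk : 0 < k)
    (hk1 : k ≤ 1 / 300) (hη : r * √(-t) < η) (hp : r * (4 * ‖(√(-t))⁻¹ • p‖ + 1) < 1)
    (hc₁ : c₁ = √(-(t - 7 / 8 * (√(-t) * r * k) ^ 2))) :
    √(-t) * r * k < η ∧ t + (√(-t) * r * k) ^ 2 < 0 ∧ √(-t) ≤ c₁ ∧ c₁ ≤ 2 * √(-t) ∧
      ‖c₁ • (√(-t))⁻¹ • p - p‖ ≤ √(-t) * r * k / 4 := by
  obtain ⟨h1, h2⟩ := sqrt_bounds (ρ := √(-t) * r * k) ht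
  rw [← hc₁] at h1 h2
  have hc0 : 0 < √(-t) := Real.sqrt_pos.2 (neg_pos.2 ht)
  have hc2 : √(-t) ^ 2 = -t := Real.sq_sqrt (neg_pos.2 ht).le
  generalize √(-t) = c at *
  have hk2 : k ≤ 1 := by linarith
  have h3 : c * r * k ≤ c * r := mul_le_of_le_one_right (by positivity) hk2
  have h4 : c * r < c := mul_lt_of_lt_one_right hc0 hr1
  have h5 : (c * r * k) ^ 2 / c ≤ c * r * k * r := by
    rw [div_le_iff₀ hc0]
    calc _ = c * r * k * r * c * k := by ring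
      _ ≤ _ := mul_le_of_le_one_right (by positivity) hk2
  have h6 : c * r * k * r ≤ c * r * k := mul_le_of_le_one_right (by positivity) hr1.le
  have h7 : (c * r * k) ^ 2 < c ^ 2 := pow_lt_pow_left₀ (by linarith) (by positivity) two_ne_zero
  refine ⟨by linarith, by linarith, h1, by linarith, ?_⟩
  have e : c₁ • c⁻¹ • p - p = (c₁ - c) • c⁻¹ • p := by rw [sub_smul, smul_inv_smul₀ hc0.ne']
  rw [e, norm_smul, Real.norm_of_nonneg (sub_nonneg.2 h1)]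
  calc _ ≤ c * r * k * r * ‖c⁻¹ • p‖ := by gcongr; linarith
    _ = c * r * k * (r * ‖c⁻¹ • p‖) := by ring
    _ ≤ c * r * k * (1 / 4) := by gcongr; linarith
    _ = _ := by ring

lemma exp_far {D m ε c₁ h h₀ r' : ℝ} (hD : 0 < D) (hm0 : 0 < m) (hm1 : m ≤ 1 / 80)
    (hm2 : m ≤ ε / 8) (h1 : D / 4 ≤ |c₁ * (0 - h₀)|) (h2 : |h| ≤ 10 * (D * m)) (h3 : 0 < r')
    (h4 : r' ≤ D * m) : Real.exp (-(h + c₁ * (0 - h₀)) ^ 2 / (4 * r' ^ 2)) ≤ ε / 2 := by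
  have h5 : D / 8 ≤ |h + c₁ * (0 - h₀)| := by
    have h7 := abs_sub_abs_le_abs_add (c₁ * (0 - h₀)) h
    rw [add_comm] at h7
    have h8 : D * m ≤ D * (1 / 80) := by gcongr
    linarith
  have h6 : (D / 8) ^ 2 ≤ (h + c₁ * (0 - h₀)) ^ 2 := by
    rw [← sq_abs (h + _)]
    gcongr
  have h7 : 0 < (h + c₁ * (0 - h₀)) ^ 2 := lt_of_lt_of_le (by positivity) h6
  rw [neg_div]
  refine (exp_neg_le (by positivity)).trans ?_
  rw [inv_div]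
  calc _ ≤ 4 * (D * m) ^ 2 / (D / 8) ^ 2 := by gcongr
    _ = 256 * (m * m) := by field_simp; ring
    _ ≤ 256 * (1 / 80 * (ε / 8)) := by gcongr
    _ ≤ _ := by linarith

/-- [REGPT] -/
theorem regPt (hM : Mono) (hT : Tan) (hF : FlatStmt) (hS : SheetStmt) (hC : CylDensStmt) :
    RegPtStmt := by
  intro w a A C ha hw s ν hs t ht p hp η hη
  obtain ⟨ε, hε, hS⟩ := sheet_of hT hS A hη
  have hA : 0 ≤ A := zero_le_one.trans hw.one_le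
  obtain ⟨κ, hκ, hκ1, hG⟩ := gd_le hM hC hA (half_pos hε)
  obtain ⟨m, hm0, hm1, hm2⟩ : ∃ m : ℝ, 0 < m ∧ m ≤ 1 / 80 ∧ m ≤ ε / 8 :=
    ⟨min (1 / 80) (ε / 8), lt_min (by norm_num) (by positivity), min_le_left _ _, min_le_right _ _⟩
  obtain ⟨δ, hδ, hG⟩ := hG (κ * m / 4) (by positivity)
  have hc0 : 0 < √(-t) := Real.sqrt_pos.2 (neg_pos.2 ht)
  obtain ⟨r₀, hr₀, hfl⟩ := hF w a A C ha hw s ν hs ‖(√(-t))⁻¹ • p‖ 10 δ hδ
  have hsm : ∀ᶠ r in 𝓝[>] (0 : ℝ), r ∈ Ioo 0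
      (min (min r₀ 1) (min (η / √(-t)) (1 / (4 * ‖(√(-t))⁻¹ • p‖ + 1)))) :=
    Ioo_mem_nhdsGT (by positivity)
  have hp' : ∃ᶠ r in 𝓝[>] (0 : ℝ), ¬3 / 2 ≤ mk ν ((√(-t))⁻¹ • p) r := not_eventually.1 hp
  obtain ⟨r, hr1, hr, hr2⟩ := (hp'.and_eventually hsm).exists
  simp only [lt_min_iff] at hr2
  obtain ⟨⟨hr2, hr3⟩, hr4, hr5⟩ := hr2
  rw [lt_div_iff₀ hc0] at hr4
  rw [lt_div_iff₀ (by positivity)] at hr5
  obtain ⟨n, h₀, hn, hG⟩ := hG ν (hT.ratio w a A ha hw.toIsARFlow s ν hs) _ r hr (not_le.1 hr1)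
    (hfl _ le_rfl r hr hr2)
  obtain ⟨Q, rfl⟩ := exists_frame hn
  have hκm : κ * m ≤ κ := mul_le_of_le_one_right hκ.le (by linarith)
  have key : ∀ k h₁ : ℝ, κ * m ≤ k → k ≤ κ → |h₁| ≤ k * r / 4 →
      (∀ c₁ h r', √(-t) ≤ c₁ → |h| ≤ 10 * (√(-t) * r * k) → 0 < r' → r' ≤ √(-t) * r * k →
        Real.exp (-(h + c₁ * (h₁ - h₀)) ^ 2 / (4 * r' ^ 2))
          ≤ Real.exp (-h ^ 2 / (4 * r' ^ 2)) + ε / 2) →
      ∃ (Q : E3 ≃ₗᵢ[ℝ] E3) (p' : E3) (ρ : ℝ), 0 < ρ ∧ ρ < η ∧ t + ρ ^ 2 < 0 ∧ ‖p' - p‖ ≤ ρ ∧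
        ∀ᶠ i in atTop,
          SheetOn (resc w (s i)) (Icc (t - ρ ^ 2 / 8) (t + ρ ^ 2 / 8)) Q p' (5 * ρ) ρ η := by
    intro k h₁ hk1 hk2 hh₁ hexp
    have hk0 : 0 < k := lt_of_lt_of_le (by positivity) hk1
    obtain ⟨g1, g2, g3, g4, g5⟩ := small_scale ht hr hr3 hk0 (hk2.trans hκ1) hr4 hr5 rfl
    obtain ⟨g6, g7⟩ := gd_slice hr hc0 g3 g4 (by positivity) (by linarith) hk2 hκ1 hh₁ hG
    have hρ0 : 0 < √(-t) * r * k := by positivity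
    refine ⟨Q, _, _, hρ0, g1, g2, ?_, hS w a C s ν ha hw hs Q _ _ t hρ0 g2
      fun ξ h r' hξ hh' hr' => (g7 ξ h r' hξ hh' hr').trans ?_⟩
    · rw [add_sub_right_comm]
      exact (norm_add_le _ _).trans (by linarith)
    · linarith [hexp _ h r' g3 hh' (lt_of_lt_of_le (half_pos hρ0) hr'.1) hr'.2]
  rcases le_or_gt |h₀| (κ * r / 4) with h0 | h0
  · refine key κ h₀ hκm le_rfl h0 fun c₁ h r' _ _ _ _ => ?_
    rw [sub_self, mul_zero, add_zero]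
    linarith
  · refine key (κ * m) 0 le_rfl hκm (by rw [abs_zero]; positivity)
      fun c₁ h r' h1 h2 h3 h4 => le_add_of_nonneg_of_le (Real.exp_pos _).le ?_
    rw [← mul_assoc (√(-t) * r)] at h2 h4
    refine exp_far (by positivity) hm0 hm1 hm2 ?_ h2 h3 h4
    rw [abs_mul, zero_sub, abs_neg, abs_of_pos (hc0.trans_le h1)]
    calc _ = √(-t) * (κ * r / 4) := by ring
      _ ≤ _ := mul_le_mul h1 h0.le (by positivity) (hc0.trans_le h1).le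

end Vale.Agent.P218UK
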