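import Vale.Agent.P218UK.Var

/-! The space-time bound for the mean curvature, up to the final time. -/

open MeasureTheory Set Filter Topology Metric Module
open scoped ENNReal NNReal RealInnerProductSpace ContDiff

namespace Vale.Agent.P218UK

open Vale.Agent.P218.H63 (lap)
open Vale.Agent.P218.H313 (trL)
open Vale.Agent.P218UA

variable {w : ℝ → E3 → ℝ} {I : Set ℝ} {A : ℝ}

lemma cd_grad (h : IsFlow w I) {p : ℝ × E3} (hp : p.1 ∈ I) :
    ContDiffAt ℝ 1 (fun q : ℝ × E3 => gradient (w q.1) q.2) p := by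
  have h0 : ContDiffAt ℝ 2 (fun q : ℝ × E3 => w q.1 q.2) p :=
    (h.smooth.contDiffAt ((h.isOpen.prod isOpen_univ).mem_nhds ⟨hp, mem_univ _⟩)).of_le
      two_le_infty
  have h1 : ContDiffAt ℝ 2 (Function.uncurry fun (q : ℝ × E3) (y : E3) => w q.1 y) (p, p.2) :=
    ContDiffAt.comp (g := fun q : ℝ × E3 => w q.1 q.2)
      (f := fun z : (ℝ × E3) × E3 => (z.1.1, z.2)) (p, p.2) h0 (by fun_prop)
  have h2 := ContDiffAt.fderiv (m := 1) h1 contDiffAt_snd (by norm_num)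
  exact (InnerProductSpace.toDual ℝ E3).symm.toContinuousLinearEquiv.contDiff.contDiffAt.comp p h2

lemma cont_grad (h : IsFlow w I) :
    ContinuousOn (fun q : ℝ × E3 => gradient (w q.1) q.2) (I ×ˢ univ) := fun _ hp =>
  (cd_grad h hp.1).continuousAt.continuousWithinAt

lemma cont_lap (h : IsFlow w I) :
    ContinuousOn (fun q : ℝ × E3 => lap (w q.1) q.2) (I ×ˢ univ) := by
  intro p hp
  have h1 : ContDiffAt ℝ 1
      (Function.uncurry fun (q : ℝ × E3) (y : E3) => gradient (w q.1) y) (p, p.2) :=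
    ContDiffAt.comp (g := fun q : ℝ × E3 => gradient (w q.1) q.2)
      (f := fun z : (ℝ × E3) × E3 => (z.1.1, z.2)) (p, p.2) (cd_grad h hp.1) (by fun_prop)
  have h2 := ContDiffAt.fderiv (m := 0) h1 contDiffAt_snd (by norm_num)
  exact ((trL E3).continuous.continuousAt.comp h2.continuousAt).continuousWithinAt

/-- the integral of `H²` over a ball -/
noncomputable def en (w : ℝ → E3 → ℝ) (r t : ℝ) : ℝ≥0∞ :=
  ∫⁻ x in ball 0 r, ENNReal.ofReal (lap (w t) x ^ 2) ∂(ar (w t))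

lemma en_meas (h1 : Calc) (h : IsFlow w I) (r : ℝ) :
    AEMeasurable (en w r) (volume.restrict I) := by
  classical
  have hs : MeasurableSet (I ×ˢ ball (0 : E3) r) := h.isOpen.measurableSet.prod measurableSet_ball
  have hm : Measurable ((I ×ˢ ball (0 : E3) r).piecewise
      (fun q : ℝ × E3 => ENNReal.ofReal (lap (w q.1) q.2 ^ 2)) fun _ => 0) :=
    ContinuousOn.measurable_piecewise (ENNReal.continuous_ofReal.comp_continuousOn
      (((cont_lap h).mono (prod_mono_right (subset_univ _))).pow 2)) continuousOn_const hs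
  refine (h1.stm_meas w I h _ hm).congr ?_
  filter_upwards [ae_restrict_mem h.isOpen.measurableSet] with t ht
  rw [en, ← lintegral_indicator measurableSet_ball]
  refine lintegral_congr fun x => ?_
  by_cases hx : x ∈ ball (0 : E3) r
  · rw [piecewise_eq_of_mem _ _ _ (show (t, x) ∈ I ×ˢ ball (0 : E3) r from ⟨ht, hx⟩),
      indicator_of_mem hx]
  · rw [piecewise_eq_of_notMem _ _ _ (show (t, x) ∉ I ×ˢ ball (0 : E3) r from fun h => hx h.2),
      indicator_of_notMem hx]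

lemma en_toReal (h1 : Calc) (h : IsFlow w I) (r : ℝ) {t : ℝ} (ht : t ∈ I) :
    ∫ x in ball 0 r, lap (w t) x ^ 2 ∂(ar (w t)) = (en w r t).toReal :=
  integral_eq_lintegral_of_nonneg_ae (Eventually.of_forall fun _ => sq_nonneg _)
    ((Vale.Agent.P218GA.continuous_lap (surf_cd2 (h1.slice w I h t ht))).pow 2).aestronglyMeasurable

lemma ar_ball_le (h : IsARFlow w I A) {r : ℝ} (hr : 0 < r) {t : ℝ} (ht : t ∈ I) :
    ar (w t) (ball 0 r) ≤ ENNReal.ofReal (A * r ^ 2) :=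
  (measure_mono ball_subset_closedBall).trans (h.ratio t ht 0 r hr)

lemma en_bdd (h : IsARFlow w I A) {r : ℝ} (hr : 0 < r) {S : Set ℝ} (hS : IsCompact S)
    (hI : S ⊆ I) : ∃ B : ℝ≥0∞, B < ⊤ ∧ ∀ t ∈ S, en w r t ≤ B := by
  obtain ⟨C, hC⟩ := (hS.prod (isCompact_closedBall (0 : E3) r)).exists_bound_of_continuousOn
    (((cont_lap h.toIsFlow).mono (prod_mono hI (subset_univ _))).pow 2)
  refine ⟨ENNReal.ofReal C * ENNReal.ofReal (A * r ^ 2),
    ENNReal.mul_lt_top ENNReal.ofReal_lt_top ENNReal.ofReal_lt_top, fun t ht => ?_⟩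
  calc en w r t ≤ ∫⁻ _ in ball (0 : E3) r, ENNReal.ofReal C ∂(ar (w t)) :=
        setLIntegral_mono' measurableSet_ball fun x hx => ENNReal.ofReal_le_ofReal
          ((le_abs_self _).trans (hC (t, x) ⟨ht, ball_subset_closedBall hx⟩))
    _ = ENNReal.ofReal C * ar (w t) (ball 0 r) := setLIntegral_const _ _
    _ ≤ _ := by gcongr; exact ar_ball_le h hr (hI ht)

lemma en_Ioc (h1 : Calc) (h2 : Mono) : ∃ C : ℝ, 0 ≤ C ∧ ∀ w I A, IsARFlow w I A →
    ∀ r t₁ t₂ : ℝ, 0 < r → t₁ ∈ I → t₂ ∈ I → t₁ ≤ t₂ →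
      ∫⁻ t in Ioc t₁ t₂, en w r t ≤ ENNReal.ofReal (C * A * (r ^ 2 + (t₂ - t₁))) := by
  obtain ⟨C, hC⟩ := h2.hsq
  refine ⟨|C|, abs_nonneg _, fun w I A h r t₁ t₂ hr h₁ h₂ h12 => ?_⟩
  have hI : Icc t₁ t₂ ⊆ I := h.conn.out h₁ h₂
  have hI' : Ioc t₁ t₂ ⊆ I := Ioc_subset_Icc_self.trans hI
  obtain ⟨B, hB, hb⟩ := en_bdd h hr isCompact_Icc hI
  have hfin : ∫⁻ t in Ioc t₁ t₂, en w r t < ⊤ := by
    refine (setLIntegral_mono' measurableSet_Ioc fun t ht =>
      hb t (Ioc_subset_Icc_self ht)).trans_lt ?_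
    rw [setLIntegral_const]
    exact ENNReal.mul_lt_top hB measure_Ioc_lt_top
  have hm : AEMeasurable (en w r) (volume.restrict (Ioc t₁ t₂)) :=
    (en_meas h1 h.toIsFlow r).mono_set hI'
  have e := integral_toReal hm (ae_lt_top' hm hfin.ne)
  have h3 := hC w I A h 0 r t₁ t₂ hr h₁ h₂ h12
  rw [intervalIntegral.integral_of_le h12, setIntegral_congr_fun measurableSet_Ioc
    fun t ht => en_toReal h1 h.toIsFlow r (hI' ht), e] at h3
  rw [← ENNReal.ofReal_toReal hfin.ne]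
  refine ENNReal.ofReal_le_ofReal (h3.trans ?_)
  have hA := h.one_le
  have : 0 ≤ r ^ 2 + (t₂ - t₁) := by positivity
  gcongr
  exact le_abs_self C

lemma en_fin (h1 : Calc) (h2 : Mono) (h : IsARFlow w I A) {T : ℝ} (hT : 0 < T)
    (hI : Ico 0 T ⊆ I) {r : ℝ} (hr : 0 < r) : ∫⁻ t in Ico 0 T, en w r t < ⊤ := by
  obtain ⟨C, hC0, hC⟩ := en_Ioc h1 h2
  obtain ⟨u, hu, hu0, hul⟩ := exists_seq_strictMono_tendsto' hT
  have e : Ioo 0 T = ⋃ n, Ioc 0 (u n) := by
    ext t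
    simp only [mem_iUnion]
    refine ⟨fun ht => ?_, fun ⟨n, hn⟩ => ⟨hn.1, hn.2.trans_lt (hu0 n).2⟩⟩
    obtain ⟨n, hn⟩ := (hul.eventually (lt_mem_nhds ht.2)).exists
    exact ⟨n, ht.1, hn.le⟩
  rw [← setLIntegral_congr Ioo_ae_eq_Ico, e, setLIntegral_iUnion_of_directed _
    (Monotone.directed_le fun _ _ hmn => Ioc_subset_Ioc_right (hu.monotone hmn))]
  refine lt_of_le_of_lt (iSup_le fun n => ?_)
    (ENNReal.ofReal_lt_top (r := C * A * (r ^ 2 + T)))
  refine (hC w I A h r 0 (u n) hr (hI ⟨le_rfl, hT⟩) (hI ⟨(hu0 n).1.le, (hu0 n).2⟩)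
    (hu0 n).1.le).trans (ENNReal.ofReal_le_ofReal ?_)
  have hA := h.one_le
  have := (hu0 n).2
  gcongr
  linarith

/-- the integral of `1 + H²` over a ball -/
noncomputable def mass (w : ℝ → E3 → ℝ) (r t : ℝ) : ℝ≥0∞ :=
  ∫⁻ x in ball 0 r, (1 + ENNReal.ofReal (lap (w t) x ^ 2)) ∂(ar (w t))

lemma mass_fin (h1 : Calc) (h2 : Mono) (h : IsARFlow w I A) {T : ℝ} (hT : 0 < T)
    (hI : Ico 0 T ⊆ I) {r : ℝ} (hr : 0 < r) : ∫⁻ t in Ico 0 T, mass w r t < ⊤ := by
  have h3 : ∀ t ∈ Ico 0 T, mass w r t ≤ ENNReal.ofReal (A * r ^ 2) + en w r t := by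
    intro t ht
    rw [mass, lintegral_add_left measurable_const, setLIntegral_const, one_mul]
    exact add_le_add (ar_ball_le h hr (hI ht)) le_rfl
  refine (setLIntegral_mono' measurableSet_Ico h3).trans_lt ?_
  rw [lintegral_add_left measurable_const, setLIntegral_const]
  exact ENNReal.add_lt_top.2 ⟨ENNReal.mul_lt_top ENNReal.ofReal_lt_top measure_Ico_lt_top,
    en_fin h1 h2 h hT hI hr⟩

end Vale.Agent.P218UK
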