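import Vale.Agent.P218UA.Props2
import Vale.Agent.P218GA.Tan

/-! A smooth surface as an integral varifold, with its mean curvature. -/

open MeasureTheory Set Filter Topology Metric Module
open scoped ENNReal NNReal RealInnerProductSpace ContDiff

namespace Vale.Agent.P218UK

open Vale.Agent.P214 (IntegralVarifold CountablyRectifiable weightOf proj divAlong)
open Vale.Agent.P218 (IsMeanCurvature)
open Vale.Agent.P218.H63 (lap contDiff_gradient)
open Vale.Agent.P218GA (area hyp cH exists_chart par0 dom0 isOpen_dom0 ae_area proj_hyp)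
open Vale.Agent.P218UA

lemma finrank_E3 : finrank ℝ E3 = 2 + 1 := by simp

lemma area_eq (w : E3 → ℝ) : area 2 w = cH 2 • ar w := by
  rw [area, ar, Vale.Agent.P218GA.hausdorff_eq_smul, Measure.restrict_smul]

lemma integral_area (w : E3 → ℝ) (g : E3 → ℝ) :
    ∫ x, g x ∂(area 2 w) = cH 2 * ∫ x, g x ∂(ar w) := by
  rw [area_eq, integral_smul_nnreal_measure, NNReal.smul_def, smul_eq_mul]

variable {w : E3 → ℝ}

lemma two_le_infty : (2 : WithTop ℕ∞) ≤ ((⊤ : ℕ∞) : WithTop ℕ∞) :=
  WithTop.coe_le_coe.2 (le_top : (2 : ℕ∞) ≤ ⊤)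

lemma surf_cd1 (h : IsSurf w) : ContDiff ℝ 1 w := h.smooth.of_le (by simp)

lemma surf_cd2 (h : IsSurf w) : ContDiff ℝ 2 w := h.smooth.of_le two_le_infty

lemma surf_unit (h : IsSurf w) (x : E3) (hx : w x = 0) : ‖gradient w x‖ = 1 :=
  (h.eik x hx).self_of_nhds

lemma exists_lip (h : IsSurf w) (p : E3) : ∃ U ∈ 𝓝 p, ∃ f : (Fin 2 → ℝ) → E3,
    (∃ K : ℝ≥0, LipschitzWith K f) ∧ {x | w x = 0} ∩ U ⊆ range f := by
  by_cases hp : w p = 0
  · obtain ⟨Θ, hpΘ, hΘ⟩ := exists_chart (surf_cd1 h) (surf_unit h p hp)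
    have e : ∀ x, w x = 0 → Θ x = (0, (Θ x).2) := fun x hx =>
      Prod.ext (by rw [hΘ.fst]; exact hx) rfl
    have hq : (Θ p).2 ∈ dom0 Θ := by
      change (0, (Θ p).2) ∈ Θ.target
      rw [← e p hp]
      exact Θ.map_source hpΘ
    obtain ⟨K, s, hs, hK⟩ :=
      (hΘ.cd_par0.contDiffAt (isOpen_dom0.mem_nhds hq)).exists_lipschitzOnWith
    obtain ⟨g, hg, hgs⟩ := hK.extend_finite_dimension
    have hr : finrank ℝ (Fin 2 → ℝ) = finrank ℝ (hyp (gradient w p)) := by
      rw [hΘ.finrank_eq finrank_E3]; simp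
    let L : (Fin 2 → ℝ) ≃L[ℝ] hyp (gradient w p) := ContinuousLinearEquiv.ofFinrankEq hr
    have hc : ContinuousAt (fun x => (Θ x).2) p :=
      continuous_snd.continuousAt.comp (Θ.continuousAt hpΘ)
    refine ⟨Θ.source ∩ {x | (Θ x).2 ∈ s}, inter_mem (Θ.open_source.mem_nhds hpΘ) (hc hs),
      g ∘ L, ⟨_, hg.comp L.lipschitz⟩, ?_⟩
    rintro x ⟨hx, hxs, hx2⟩
    refine ⟨L.symm (Θ x).2, ?_⟩
    rw [Function.comp, L.apply_symm_apply, ← hgs hx2, par0, ← e x hx, Θ.left_inv hxs]
  · refine ⟨{x | w x ≠ 0}, (isOpen_ne_fun h.smooth.continuous continuous_const).mem_nhds hp,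
      fun _ => 0, ⟨0, LipschitzWith.const _⟩, fun x hx => absurd hx.1 hx.2⟩

lemma rectifiable (h : IsSurf w) : CountablyRectifiable 2 {x | w x = 0} := by
  choose U hU f hf hsub using exists_lip h
  obtain ⟨s, hs, hcov⟩ := TopologicalSpace.countable_cover_nhds hU
  have hne : s.Nonempty := by
    have : (0 : E3) ∈ ⋃ x ∈ s, U x := hcov ▸ mem_univ _
    obtain ⟨x, hx, -⟩ := mem_iUnion₂.1 this
    exact ⟨x, hx⟩
  obtain ⟨g, rfl⟩ := hs.exists_eq_range hne
  refine ⟨fun i => f (g i), fun i => hf _, ?_⟩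
  have : {x | w x = 0} \ ⋃ i, range (f (g i)) = ∅ := by
    rw [sdiff_eq_empty]
    intro x hx
    have : x ∈ ⋃ y ∈ range g, U y := hcov ▸ mem_univ _
    obtain ⟨_, ⟨i, rfl⟩, hi⟩ := mem_iUnion₂.1 this
    exact mem_iUnion.2 ⟨i, hsub _ ⟨hx, hi⟩⟩
  rw [this, measure_empty]

lemma weightOf_one (w : E3 → ℝ) : weightOf 2 {x | w x = 0} (fun _ => 1) = area 2 w := by
  simp [weightOf, area]

lemma surf_locFin (h : IsSurf w) : IsLocallyFiniteMeasure (area 2 w) :=
  Vale.Agent.P218GA.area_locallyFinite finrank_E3 (surf_cd1 h) (surf_unit h)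

lemma proj_meas (h : IsSurf w) :
    AEStronglyMeasurable (fun x => proj (hyp (gradient w x))) (area 2 w) := by
  have hg := Vale.Agent.P218GA.continuous_gradient (surf_cd1 h)
  have hc : Continuous fun x => ContinuousLinearMap.id ℝ E3
      - ContinuousLinearMap.smulRightL ℝ E3 E3 (innerSL ℝ (gradient w x)) (gradient w x) :=
    continuous_const.sub ((((ContinuousLinearMap.smulRightL ℝ E3 E3).continuous.comp
      ((innerSL ℝ).continuous.comp hg))).clm_apply hg)
  refine hc.aestronglyMeasurable.congr ?_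
  filter_upwards [ae_area h.smooth.continuous] with x hx
  ext v
  simp [proj, proj_hyp (surf_unit h x hx)]

/-- the varifold of a surface -/
noncomputable def surfV (h : IsSurf w) : IntegralVarifold 2 (univ : Set E3) where
  carrier := {x | w x = 0}
  mult := fun _ => 1
  tangent := fun x => hyp (gradient w x)
  carrier_subset := subset_univ _
  carrier_meas := (Vale.Agent.P218GA.measurableSet_zero h.smooth.continuous).nullMeasurableSet
  rectifiable := rectifiable h
  mult_meas := aemeasurable_const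
  mult_pos := fun _ _ => le_rfl
  locFinite := fun K _ hK => by
    have := surf_locFin h
    rw [weightOf_one]
    exact hK.measure_lt_top
  tangent_meas := by
    rw [weightOf_one]
    exact proj_meas h
  tangent_spec := by
    rw [weightOf_one]
    filter_upwards [ae_area h.smooth.continuous] with x hx
    exact Vale.Agent.P218GA.isApproxTangent finrank_E3 (surf_cd1 h) hx (surf_unit h x hx)

lemma surfV_weight (h : IsSurf w) : (surfV h).weight = area 2 w := weightOf_one w

/-- the mean curvature vector -/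
noncomputable def mcv (w : E3 → ℝ) (x : E3) : E3 := -lap w x • gradient w x

lemma continuous_mcv (h : IsSurf w) : Continuous (mcv w) :=
  (Vale.Agent.P218GA.continuous_lap (surf_cd2 h)).neg.smul
    (Vale.Agent.P218GA.continuous_gradient (surf_cd1 h))

lemma norm_mcv_sq (h : IsSurf w) {x : E3} (hx : w x = 0) : ‖mcv w x‖ ^ 2 = lap w x ^ 2 := by
  rw [mcv, norm_smul, surf_unit h x hx, mul_one, Real.norm_eq_abs, sq_abs, neg_sq]

lemma enorm_mcv_sq (h : IsSurf w) {x : E3} (hx : w x = 0) :
    ‖mcv w x‖ₑ ^ 2 = ENNReal.ofReal (lap w x ^ 2) := by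
  rw [← norm_mcv_sq h hx, ENNReal.ofReal_pow (norm_nonneg _), ofReal_norm]

lemma surfV_mc (h1 : Calc) (h : IsSurf w) : IsMeanCurvature (surfV h) (mcv w) := by
  have hlf := surf_locFin h
  refine ⟨(continuous_mcv h).aestronglyMeasurable, fun K hK => ?_,
    Eventually.of_forall fun x => ?_, fun X hX => ?_⟩
  · rw [surfV_weight]
    have := (((continuous_mcv h).norm.pow 2).continuousOn.integrableOn_compact
      (μ := area 2 w) hK).lintegral_lt_top
    refine lt_of_eq_of_lt (lintegral_congr fun x => ?_) this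
    rw [Pi.pow_apply, ENNReal.ofReal_pow (norm_nonneg _), ofReal_norm]
  · change mcv w x ∈ (hyp (gradient w x))ᗮ
    rw [Submodule.orthogonal_orthogonal]
    exact Submodule.smul_mem _ _ (Submodule.mem_span_singleton_self _)
  · rw [surfV_weight]
    have e1 : ∫ x, divAlong ((surfV h).tangent x) X x ∂(area 2 w)
        = ∫ x, trT (gradient w x) (fderiv ℝ X x) ∂(area 2 w) := by
      refine integral_congr_ae ?_
      filter_upwards [ae_area h.smooth.continuous] with x hx
      change divAlong (hyp (gradient w x)) X x = _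
      rw [Vale.Agent.P218GA.divAlong_hyp (surf_unit h x hx), real_inner_comm]
      rfl
    rw [e1, integral_area, h1.firstVar w h X hX.1 hX.2.1, ← integral_area, ← integral_neg]
    congr 1
    ext x
    rw [mcv, inner_smul_right]
    ring

lemma weightOf_empty (θ : E3 → ℕ) : weightOf 2 (∅ : Set E3) θ = 0 := by
  simp [weightOf]

/-- the zero varifold -/
noncomputable def zeroV : IntegralVarifold 2 (univ : Set E3) where
  carrier := ∅
  mult := fun _ => 1
  tangent := fun _ => ⊥
  carrier_subset := subset_univ _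
  carrier_meas := nullMeasurableSet_empty
  rectifiable := ⟨fun _ _ => 0, fun _ => ⟨0, LipschitzWith.const _⟩, by simp⟩
  mult_meas := aemeasurable_const
  mult_pos := fun _ _ => le_rfl
  locFinite := fun K _ _ => by simp [weightOf_empty]
  tangent_meas := aestronglyMeasurable_const
  tangent_spec := by simp [weightOf_empty]

lemma zeroV_weight : zeroV.weight = 0 := weightOf_empty _

lemma zeroV_mc (H : E3 → E3) : IsMeanCurvature zeroV H := by
  refine ⟨?_, fun K _ => ?_, ?_, fun X _ => ?_⟩ <;> simp [zeroV_weight]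

end Vale.Agent.P218UK
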